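import Vale.Agent.P006.H845.PNT

/-!
P026, block END, part 5: amplification by sixth powers of primes.  A mean square bound for the
twisted sums `∑_n b(n) χ_n(u)` over `u` gives a pointwise bound for the untwisted sum, because
`χ_n(p^6)` is the indicator of `p ∤ n`.
-/

namespace Vale.Agent.P026Z.End

open Finset Filter Topology Vale.Agent.P006

/-- the primary primes of norm in `(P/2, P]` -/
noncomputable def PD (P : ℝ) : Finset O := (PP P).filter (fun p => P / 2 < N p)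

theorem mem_PD {P : ℝ} {p : O} :
    p ∈ PD P ↔ Primary p ∧ Prime p ∧ P / 2 < N p ∧ (N p : ℝ) ≤ P := by
  rw [PD, mem_filter, mem_PP]; tauto

theorem thetaO_sub_le {P : ℝ} (hP : 1 ≤ P) :
    thetaO P - thetaO (P / 2) ≤ (PD P).card * Real.log P := by
  classical
  have h1 : thetaO P = ∑ p ∈ PD P, Real.log (N p) + thetaO (P / 2) := by
    unfold thetaO PD
    rw [← sum_filter_add_sum_filter_not (PP P) (fun p => P / 2 < N p)]
    congr 2
    ext p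
    rw [mem_filter, mem_PP, mem_PP, not_lt]
    constructor
    · rintro ⟨⟨⟨h1, _⟩, h2⟩, h3⟩; exact ⟨⟨h1, h3⟩, h2⟩
    · rintro ⟨⟨h1, h3⟩, h2⟩; exact ⟨⟨⟨h1, by linarith⟩, h2⟩, h3⟩
  rw [h1, add_sub_cancel_right, ← nsmul_eq_mul]
  apply sum_le_card_nsmul
  intro p hp
  rw [mem_PD] at hp
  exact Real.log_le_log (by linarith [hp.1.one_le_N']) hp.2.2.2

theorem exists_card_PD_ge {ε : ℝ} (hε : 0 < ε) :
    ∃ c P₀ : ℝ, 0 < c ∧ 1 ≤ P₀ ∧ ∀ P, P₀ ≤ P → c * P ^ (1 - ε) ≤ (PD P).card := by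
  have h1 := thetaO_div_tendsto
  have h2 : Tendsto (fun x : ℝ => thetaO (x / 2) / (x / 2)) atTop (𝓝 1) :=
    h1.comp (tendsto_id.atTop_div_const (by norm_num))
  have h3 := (h1.eventually (lt_mem_nhds (show (9 / 10 : ℝ) < 1 by norm_num))).and
    (h2.eventually (gt_mem_nhds (show (1 : ℝ) < 11 / 10 by norm_num)))
  obtain ⟨P₀, hP₀⟩ := eventually_atTop.1 h3
  refine ⟨ε / 4, max P₀ 1, by positivity, le_max_right _ _, fun P hP => ?_⟩
  have hP1 : 1 ≤ P := (le_max_right _ _).trans hP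
  have hP0 : 0 < P := by linarith
  obtain ⟨h4, h5⟩ := hP₀ P ((le_max_left _ _).trans hP)
  rw [lt_div_iff₀ hP0] at h4
  rw [div_lt_iff₀ (by positivity)] at h5
  have h6 := thetaO_sub_le hP1
  have h7 : Real.log P ≤ P ^ ε / ε := Real.log_le_rpow_div hP0.le hε
  have h8 : P / 4 ≤ (PD P).card * (P ^ ε / ε) := by
    have := mul_le_mul_of_nonneg_left h7 (Nat.cast_nonneg (α := ℝ) (PD P).card)
    linarith
  have h9 : 0 < P ^ ε := Real.rpow_pos_of_pos hP0 _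
  rw [Real.rpow_sub hP0, Real.rpow_one, ← mul_div_assoc, div_le_iff₀ h9]
  rw [← mul_div_assoc, le_div_iff₀ hε] at h8
  linarith

theorem norm_sum_sub_le {T : Finset O} {b : O → ℂ} {f : O → ℂ} {B Y : ℝ} (hB : 0 ≤ B)
    (hY : 0 ≤ Y) (hT : ∀ n ∈ T, b n ≠ 0 → Primary n ∧ (N n : ℝ) ≤ Y) (hb : ∀ n ∈ T, ‖b n‖ ≤ B)
    {p : O} (hp : Primary p) (hf : ∀ n ∈ T, b n ≠ 0 → f n = if p ∣ n then 0 else 1) :
    ‖∑ n ∈ T, b n‖ ≤ ‖∑ n ∈ T, b n * f n‖ + B * (4 * (Y / N p)) := by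
  classical
  have h1 : ∑ n ∈ T, b n = ∑ n ∈ T, b n * f n
      + ∑ n ∈ T.filter (fun n => b n ≠ 0 ∧ p ∣ n), b n := by
    rw [sum_filter, ← sum_add_distrib]
    refine sum_congr rfl fun n hn => ?_
    by_cases h0 : b n = 0
    · simp [h0]
    · rw [hf n hn h0]
      by_cases h2 : p ∣ n <;> simp [h0, h2]
  have h2 : T.filter (fun n => b n ≠ 0 ∧ p ∣ n) ⊆ (PB Y).filter (p ∣ ·) := by
    intro n hn
    rw [mem_filter] at hn
    rw [mem_filter, mem_PB]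
    exact ⟨hT n hn.1 hn.2.1, hn.2.2⟩
  have h3 : ((T.filter (fun n => b n ≠ 0 ∧ p ∣ n)).card : ℝ) ≤ 4 * (Y / N p) := by
    have h4 := card_le_card h2
    rw [card_multiples_PB Y hp] at h4
    exact (Nat.cast_le.2 h4).trans (card_PB_le (by positivity))
  rw [h1]
  refine (norm_add_le _ _).trans (add_le_add le_rfl ?_)
  refine (norm_sum_le _ _).trans ?_
  refine (sum_le_card_nsmul _ _ B fun n hn => hb n (mem_filter.1 hn).1).trans ?_
  rw [nsmul_eq_mul, mul_comm]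
  exact mul_le_mul_of_nonneg_left h3 hB

theorem pow_six_injOn : Set.InjOn (fun p : O => p ^ 6) {p | Primary p ∧ Prime p} := by
  intro p hp r hr h
  have h1 : p ∣ r ^ 6 := by
    have : p ^ 6 = r ^ 6 := h
    rw [← this]; exact dvd_pow_self p (by norm_num)
  exact hp.1.eq_of_associated hr.1 (hp.2.associated_of_dvd hr.2 (hp.2.dvd_of_dvd_pow h1))

/-- **Amplification.** -/
theorem amplify {chi : O → O → ℂ} {T S : ℝ → Finset O} {b : ℝ → O → ℂ} {B Y α h σ D₀ C : ℝ}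
    (hB : 0 ≤ B) (hY : 0 ≤ Y)
    (hT : ∀ D, D₀ ≤ D → ∀ n ∈ T D, b D n ≠ 0 → Primary n ∧ (N n : ℝ) ≤ Y * D)
    (hb : ∀ D, D₀ ≤ D → ∀ n ∈ T D, ‖b D n‖ ≤ B)
    (hchi : ∀ D, D₀ ≤ D → ∀ n ∈ T D, b D n ≠ 0 → ∀ p, Primary p → Prime p →
      chi n (p ^ 6) = if p ∣ n then 0 else 1)
    (hS : ∀ D, D₀ ≤ D → ∀ p, Primary p → Prime p → (N p : ℝ) ^ 6 ≤ D ^ h → p ^ 6 ∈ S D)
    (hM : ∀ D, D₀ ≤ D → ∑ u ∈ S D, ‖∑ n ∈ T D, b D n * chi n u‖ ^ 2 ≤ C * D ^ α)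
    (hh : 0 < h) (hσ1 : 1 - h / 6 ≤ σ) (hσ2 : (α - h / 6) / 2 < σ) :
    ∃ C' D₁ : ℝ, ∀ D, D₁ ≤ D → ‖∑ n ∈ T D, b D n‖ ≤ C' * D ^ σ := by
  classical
  set ε : ℝ := (2 * σ - (α - h / 6)) / (h / 6) with hε
  have hε0 : 0 < ε := div_pos (by linarith) (by positivity)
  have hε1 : h / 6 * (1 - ε) = α - 2 * σ := by
    rw [hε]; field_simp; ring
  obtain ⟨c, P₀, hc, hP₀, hcard⟩ := exists_card_PD_ge hε0
  obtain ⟨D₂, hD₂⟩ := eventually_atTop.1
    ((tendsto_rpow_atTop (show 0 < h / 6 by positivity)).eventually (eventually_ge_atTop P₀))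
  set K : ℝ := 2 * (|C| / c) + 2 * (8 * B * Y) ^ 2 with hK
  have hK0 : 0 ≤ K := by positivity
  refine ⟨√K, max (max D₀ D₂) 1, fun D hD => ?_⟩
  have hD0 : D₀ ≤ D := ((le_max_left _ _).trans (le_max_left _ _)).trans hD
  have hD2 : D₂ ≤ D := ((le_max_right _ _).trans (le_max_left _ _)).trans hD
  have hD1 : 1 ≤ D := (le_max_right _ _).trans hD
  have hDp : 0 < D := by linarith
  set P : ℝ := D ^ (h / 6) with hP
  have hPp : 0 < P := Real.rpow_pos_of_pos hDp _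
  have hc1 := hcard P (hD₂ D hD2)
  have hc2 : P ^ (1 - ε) = D ^ (α - 2 * σ) := by rw [hP, ← Real.rpow_mul hDp.le, hε1]
  rw [hc2] at hc1
  set A : ℝ := ‖∑ n ∈ T D, b D n‖ with hA
  set E : ℝ := 8 * B * Y * D ^ σ with hE
  have hDσ : 0 < D ^ σ := Real.rpow_pos_of_pos hDp _
  have hE0 : 0 ≤ E := by positivity
  have h1 : ∀ p ∈ PD P, A ^ 2 ≤ 2 * ‖∑ n ∈ T D, b D n * chi n (p ^ 6)‖ ^ 2 + 2 * E ^ 2 := by
    intro p hp
    rw [mem_PD] at hp
    obtain ⟨hp1, hp2, hp3, _⟩ := hp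
    have h2 := norm_sum_sub_le (f := fun n => chi n (p ^ 6)) hB (mul_nonneg hY hDp.le)
      (hT D hD0) (hb D hD0) hp1 (fun n hn h0 => hchi D hD0 n hn h0 p hp1 hp2)
    have h3 : D / P ≤ D ^ σ := by
      have : D / P = D ^ (1 - h / 6) := by rw [Real.rpow_sub hDp, Real.rpow_one]
      rw [this]
      exact Real.rpow_le_rpow_of_exponent_le hD1 hσ1
    have h4 : Y * D / N p ≤ Y * (2 * D ^ σ) := by
      rw [mul_div_assoc]
      refine mul_le_mul_of_nonneg_left ?_ hY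
      have h5 : D / N p ≤ D / (P / 2) := div_le_div_of_nonneg_left hDp.le (by positivity) hp3.le
      have h6 : D / (P / 2) = 2 * (D / P) := by field_simp
      linarith
    have h5 : B * (4 * (Y * D / N p)) ≤ E := by
      have := mul_le_mul_of_nonneg_left h4 hB
      rw [hE]; nlinarith
    have h6 : A ≤ ‖∑ n ∈ T D, b D n * chi n (p ^ 6)‖ + E := by linarith
    have h7 := pow_le_pow_left₀ (norm_nonneg _) h6 2
    nlinarith [sq_nonneg (‖∑ n ∈ T D, b D n * chi n (p ^ 6)‖ - E)]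
  have h2 : ∑ p ∈ PD P, ‖∑ n ∈ T D, b D n * chi n (p ^ 6)‖ ^ 2 ≤ |C| * D ^ α := by
    have hinj : Set.InjOn (fun p : O => p ^ 6) (PD P : Set O) :=
      pow_six_injOn.mono fun p hp => And.intro (mem_PD.1 hp).1 (mem_PD.1 hp).2.1
    rw [← sum_image (f := fun u => ‖∑ n ∈ T D, b D n * chi n u‖ ^ 2) hinj]
    refine le_trans (sum_le_sum_of_subset_of_nonneg ?_ fun _ _ _ => by positivity)
      ((hM D hD0).trans (mul_le_mul_of_nonneg_right (le_abs_self C) (by positivity)))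
    intro u hu
    obtain ⟨p, hp, rfl⟩ := mem_image.1 hu
    rw [mem_PD] at hp
    refine hS D hD0 p hp.1 hp.2.1 ?_
    have h3 : P ^ 6 = D ^ h := by
      rw [hP, ← Real.rpow_natCast, ← Real.rpow_mul hDp.le]; norm_num
    rw [← h3]
    exact pow_le_pow_left₀ (Nat.cast_nonneg _) hp.2.2.2 6
  have h3 : ((PD P).card : ℝ) * A ^ 2 ≤ 2 * (|C| * D ^ α) + (PD P).card * (2 * E ^ 2) := by
    have h4 := sum_le_sum h1
    rw [sum_const, nsmul_eq_mul, sum_add_distrib, sum_const, nsmul_eq_mul, ← mul_sum] at h4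
    linarith
  have hDa : 0 < D ^ (α - 2 * σ) := Real.rpow_pos_of_pos hDp _
  have hn : (0 : ℝ) < (PD P).card := lt_of_lt_of_le (by positivity) hc1
  have h4 : |C| * D ^ α ≤ (PD P).card * (|C| / c * (D ^ σ) ^ 2) := by
    have h5 : D ^ α = D ^ (α - 2 * σ) * (D ^ σ) ^ 2 := by
      rw [← Real.rpow_natCast, ← Real.rpow_mul hDp.le, ← Real.rpow_add hDp]
      congr 1; push_cast; ring
    have h6 : |C| * D ^ α = (c * D ^ (α - 2 * σ)) * (|C| / c * (D ^ σ) ^ 2) := by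
      rw [h5]; field_simp
    rw [h6]
    exact mul_le_mul_of_nonneg_right hc1 (by positivity)
  have h5 : A ^ 2 ≤ K * (D ^ σ) ^ 2 := by
    refine le_of_mul_le_mul_left ?_ hn
    rw [hK]
    have h6 : E ^ 2 = (8 * B * Y) ^ 2 * (D ^ σ) ^ 2 := by rw [hE]; ring
    rw [h6] at h3
    nlinarith
  have h6 : K * (D ^ σ) ^ 2 = (√K * D ^ σ) ^ 2 := by rw [mul_pow, Real.sq_sqrt hK0]
  rw [h6] at h5
  exact (pow_le_pow_iff_left₀ (norm_nonneg _) (by positivity) two_ne_zero).1 h5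

end Vale.Agent.P026Z.End
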