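import Vale.Agent.P026Z.End.Zeta
import Vale.Agent.P026Z.End.Amp
import Vale.Agent.P026Z.Poi.Defs

/-!
P026, block END, part 6: from the mean square bound `MB` to the zero-free half-plane
`Re s > 11/12`.
-/

namespace Vale.Agent.P026Z.End

open Finset Set Vale.Agent.P006 Vale.Agent.P026Z.Poi
open scoped ContDiff ComplexConjugate

theorem mob_eq_moeb {n : O} (hn : Primary n) (hs : Squarefree n) : HB.mob n = (moeb n : ℂ) := by
  revert hs
  refine Primary.induction (P := fun n => Squarefree n → HB.mob n = (moeb n : ℂ)) ?_ ?_ n hn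
  · intro _; rw [HB.mob_one, moeb_one]; simp
  · intro π b hπ hπp hb ih hsq
    have h1 := (squarefree_mul_iff' hπp hb).1 hsq
    rw [HB.mob_mul hπ hb.ne_zero, ih h1.2.2, moeb_mul hπp hb h1.1,
      moeb_of_squarefree h1.2.1, pdv_prime hπ hπp]
    simp

theorem isCoprime_two_iff (n : O) : IsCoprime n 2 ↔ (N n).Coprime 2 := by
  have hp : Prime (-((2 : ℕ) : O)) := prime_neg_natCast Nat.prime_two (by norm_num)
  have hp2 : Prime (2 : O) := by simpa using hp.neg
  rw [isCoprime_comm, hp2.coprime_iff_not_dvd, Nat.coprime_comm,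
    Nat.Prime.coprime_iff_not_dvd Nat.prime_two, not_iff_not]
  constructor
  · intro h
    have h1 := N_dvd_N h
    have h2 : N (2 : O) = 4 := by decide
    rw [h2] at h1
    exact (show 2 ∣ 4 by norm_num).trans h1
  · rintro ⟨c, hc⟩
    have h1 : (2 : O) ∣ ((N n : ℕ) : O) := by rw [hc]; push_cast; exact dvd_mul_right _ _
    rcases dvd_or_star_dvd hp2 h1 with h | h
    · exact h
    · rwa [show star (2 : O) = 2 by decide] at h

theorem chi_pow_six (S : Sext) {n : O} (hn : Adm n) (v : O) : S.chi n (v ^ 6) = V1.cop n v := by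
  have h : v ^ 6 = v * (v * (v * (v * (v * v)))) := by ring
  rw [h, ← S.conj_mul n v hn, S.conj_eq n v hn]
  simp only [S.chi_mul n _ _ hn]
  ring

theorem chi_prime_pow_six (S : Sext) {n p : O} (hn : Adm n) (hp : Prime p) :
    S.chi n (p ^ 6) = if p ∣ n then 0 else 1 := by
  rw [chi_pow_six S hn, V1.cop, hp.coprime_iff_not_dvd]
  by_cases h : p ∣ n <;> simp [h]

theorem Asum_eq (S : Sext) (κ : O → ℂ) {W : ℝ → ℝ} {b D : ℝ} (hD : 0 < D)
    (hW : ∀ x, b < x → W x = 0) (u : O) :
    Asum S κ (fun x => (W x : ℂ)) D 0 u = ∑ n ∈ PB (b * D),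
      ((moeb n : ℂ) * (if (N n).Coprime 2 then κ n else 0) * (W (N n / D) : ℂ)) * S.chi n u := by
  classical
  unfold Asum
  rw [tsum_eq_sum (s := PB (b * D))]
  · refine sum_congr rfl fun n hn => ?_
    have hp := (mem_PB.1 hn).1
    by_cases h1 : Squarefree n
    · by_cases h2 : (N n).Coprime 2
      · rw [if_pos ⟨⟨hp, (isCoprime_two_iff n).2 h2⟩, h1⟩, if_pos h2, mob_eq_moeb hp h1]
        simp only [wt, Complex.ofReal_zero, zero_mul, Complex.cpow_zero, mul_one]
        ring
      · rw [if_neg (fun h => h2 ((isCoprime_two_iff n).1 h.1.2)), if_neg h2]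
        simp
    · rw [if_neg (fun h => h1 h.2), moeb_of_not_squarefree h1]
      simp
  · intro n hn
    split_ifs with h
    · rw [mem_PB, not_and, not_le] at hn
      have h1 : b < N n / D := by rw [lt_div_iff₀ hD]; exact hn h.1.1
      simp [wt, hW _ h1]
    · rfl

theorem moebBound_of_MB (S : Sext) (hS : MB S) {κ : O → ℂ} (hκ : Cls S.q κ) {a b σ : ℝ}
    (ha : 0 < a) (hab : a < b) (hσ : 11 / 12 < σ) :
    MoebBound (fun n => if (N n).Coprime 2 then κ n else 0) a b σ := by
  intro W w1 w2 w3 w4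
  have hz : ∀ x, x ∉ Ioo a b → W x = 0 := fun x hx =>
    image_eq_zero_of_notMem_tsupport (fun h => hx (w4 h))
  have hWb : ∀ x, b < x → W x = 0 := fun x hx => hz x (fun h => by linarith [h.2])
  have hWt : IsWt (fun x => (W x : ℂ)) := by
    refine ⟨Complex.ofRealCLM.contDiff.comp w1, a, b, ha, fun x hx => ?_⟩
    have h1 : x ∈ Ioo a b := by
      by_contra h
      exact hx (by simp [hz x h])
    exact ⟨h1.1.le, h1.2.le⟩
  set η : ℝ := min 1 ((2 * σ - 11 / 6) / 4) with hη
  have hη0 : 0 < η := lt_min one_pos (by linarith)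
  have hη1 : η ≤ 1 := min_le_left _ _
  have hη2 : η ≤ (2 * σ - 11 / 6) / 4 := min_le_right _ _
  obtain ⟨C, K, H⟩ := hS η hη0 _ hWt η hη0
  refine amplify (chi := S.chi) (T := fun D => PB (b * D)) (S := fun D => HB.Hn (D ^ (1 + η)))
    (b := fun D n => (moeb n : ℂ) * (if (N n).Coprime 2 then κ n else 0) * (W (N n / D) : ℂ))
    (B := 1) (Y := b) (α := 1 + (1 + η) * (1 + η)) (h := 1 + η) (D₀ := 1) (C := C)
    zero_le_one (ha.trans hab).le ?_ ?_ ?_ ?_ ?_ (by linarith) (by linarith) (by nlinarith)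
  · intro D _ n hn _
    exact mem_PB.1 hn
  · intro D _ n _
    have h1 : ‖(moeb n : ℂ)‖ ≤ 1 := by
      rw [Complex.norm_intCast]; exact_mod_cast abs_moeb_le n
    have h2 : ‖if (N n).Coprime 2 then κ n else 0‖ ≤ 1 := by
      split_ifs
      · exact hκ.2 n
      · simp
    have h3 : ‖(W (N n / D) : ℂ)‖ ≤ 1 := by
      rw [Complex.norm_real, Real.norm_of_nonneg (w2 _)]; exact w3 _
    rw [norm_mul, norm_mul]
    exact mul_le_one₀ (mul_le_one₀ h1 (norm_nonneg _) h2) (norm_nonneg _) h3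
  · intro D _ n hn h0 p _ hp
    refine chi_prime_pow_six S ⟨(mem_PB.1 hn).1, (isCoprime_two_iff n).2 ?_⟩ hp
    by_contra h
    exact h0 (by simp only [if_neg h]; simp)
  · intro D _ p hp _ hN
    rw [HB.mem_Hn, N_pow]
    exact ⟨by exact_mod_cast hN, pow_ne_zero _ hp.ne_zero⟩
  · intro D hD
    have hD0 : 0 < D := by linarith
    have h1 := H κ hκ 0 D (D ^ (1 + η)) hD0 (Real.one_le_rpow hD (by linarith)) le_rfl
    simp_rw [Asum_eq S κ hD0 hWb] at h1
    refine h1.trans (le_of_eq ?_)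
    rw [← Real.rpow_mul hD0.le, Real.rpow_add hD0 1, Real.rpow_one]
    simp [mul_assoc]

theorem N_cast_congr {r : ℕ} {x y : O} (h : (r : O) ∣ x - y) :
    (N x : ZMod r) = (N y : ZMod r) := by
  obtain ⟨c, hc⟩ := h
  have h1 : x.re = y.re + r * c.re := by
    have := congrArg QuadraticAlgebra.re hc
    simp at this; linarith
  have h2 : x.im = y.im + r * c.im := by
    have := congrArg QuadraticAlgebra.im hc
    simp at this; linarith
  have h3 : ((N x : ℤ) : ZMod r) = ((N y : ℤ) : ZMod r) := by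
    rw [N_cast_int', N_cast_int', h1, h2]
    push_cast
    simp
  simpa using h3

/-- **No zero of `ζ` in `Re s > 11/12`**, from the mean square bound. -/
theorem riemannZeta_ne_zero_of_MB (S : Sext) (hS : MB S) {s : ℂ} (hs : 11 / 12 < s.re) :
    riemannZeta s ≠ 0 :=
  riemannZeta_ne_zero_of_moebBound (M := 2) two_ne_zero one_pos one_lt_two
    (moebBound_of_MB S hS (κ := fun _ => 1) ⟨fun _ _ _ => rfl, fun _ => by simp⟩
      one_pos one_lt_two (σ := (11 / 12 + s.re) / 2) (by linarith)) (by linarith)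

/-- **No zero of `L(s,χ)` in `Re s > 11/12`, `s ≠ 1`**, from the mean square bound with a modulus
divisible by the modulus of `χ`. -/
theorem LFunction_ne_zero_of_MB (S : Sext) (hS : MB S) {r : ℕ} [NeZero r]
    (χ : DirichletCharacter ℂ r) (hr : (r : O) ∣ S.q) {s : ℂ} (hs : 11 / 12 < s.re)
    (hs1 : s ≠ 1) : DirichletCharacter.LFunction χ s ≠ 0 :=
  LFunction_ne_zero_of_moebBound χ (M := 2) two_ne_zero one_pos one_lt_two
    (moebBound_of_MB S hS (κ := fun n => χ (N n : ZMod r))
      ⟨fun _ _ h => by simp only [N_cast_congr (hr.trans h)], fun _ => χ.norm_le_one _⟩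
      one_pos one_lt_two (σ := (11 / 12 + s.re) / 2) (by linarith)) (by linarith) hs1

end Vale.Agent.P026Z.End
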