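import Vale.Agent.P026Z.End.Mellin
import Mathlib.Analysis.Calculus.BumpFunction.InnerProduct
import Mathlib.Analysis.Calculus.BumpFunction.FiniteDimension
import Mathlib.Analysis.Real.Pi.Bounds

/-!
P026, block END, part 3: for every `ρ` and every interval `(a,b)`, `0 < a < b`, there is a smooth
nonnegative bump supported in `(a,b)` whose Mellin transform does not vanish at `ρ`.
-/

namespace Vale.Agent.P026Z.End

open Complex Set Filter MeasureTheory Topology
open scoped ContDiff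

theorem re_cpow_ofReal {x : ℝ} (hx : 0 < x) (z : ℂ) :
    ((x : ℂ) ^ z).re = x ^ z.re * Real.cos (z.im * Real.log x) := by
  rw [cpow_def_of_ne_zero (ofReal_ne_zero.2 hx.ne'), exp_re, ← ofReal_log hx.le,
    Real.rpow_def_of_pos hx]
  simp [mul_comm]

theorem exists_bump_one (ρ : ℂ) {η : ℝ} (hη : 0 < η) :
    ∃ W : ℝ → ℝ, ContDiff ℝ ∞ W ∧ (∀ x, 0 ≤ W x) ∧ (∀ x, W x ≤ 1) ∧
      tsupport W ⊆ Ioo 1 (1 + η) ∧ mellin (fun x => (W x : ℂ)) ρ ≠ 0 := by
  set δ : ℝ := min η (1 / (1 + |ρ.im|)) with hδ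
  have hδ0 : 0 < δ := lt_min hη (by positivity)
  have hδ1 : δ ≤ η := min_le_left _ _
  have hδ2 : δ * (1 + |ρ.im|) ≤ 1 := by
    rw [← le_div_iff₀ (by positivity)]; exact min_le_right _ _
  let f : ContDiffBump (1 + δ / 2 : ℝ) := ⟨δ / 8, δ / 4, by positivity, by linarith⟩
  have hr : f.rOut = δ / 4 := rfl
  have hts : tsupport f = Icc (1 + δ / 4) (1 + 3 * δ / 4) := by
    rw [f.tsupport_eq, Real.closedBall_eq_Icc, hr]; congr 1 <;> ring
  have hsp : Function.support f = Ioo (1 + δ / 4) (1 + 3 * δ / 4) := by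
    rw [f.support_eq, Real.ball_eq_Ioo, hr]; congr 1 <;> ring
  have hz : ∀ x, x ∉ Ioo (1 + δ / 4) (1 + 3 * δ / 4) → f x = 0 := by
    intro x hx; rw [← hsp] at hx; simpa using hx
  refine ⟨f, f.contDiff, f.nonneg', fun _ => f.le_one, ?_, ?_⟩
  · rw [hts]; intro x hx; exact ⟨by linarith [hx.1], by linarith [hx.2]⟩
  have hc : Continuous fun x => ((f x : ℝ) : ℂ) := continuous_ofReal.comp f.continuous
  have hconv : MellinConvergent (fun x => ((f x : ℝ) : ℂ)) ρ := by
    refine mellinConvergent_of_supp hc (a := 1) (b := 1 + δ) one_pos ?_ ?_ ρ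
    · intro x hx
      rw [hz x (fun h => by linarith [h.1]), ofReal_zero]
    · intro x hx
      rw [hz x (fun h => by linarith [h.2]), ofReal_zero]
  have hcos : ∀ x ∈ Ioo (1 + δ / 4) (1 + 3 * δ / 4), 0 < Real.cos (ρ.im * Real.log x) := by
    intro x hx
    have h1 : 0 ≤ Real.log x := Real.log_nonneg (by linarith [hx.1])
    have h2 : Real.log x ≤ δ := by
      have := Real.log_le_sub_one_of_pos (show 0 < x by linarith [hx.1])
      linarith [hx.2]
    have h3 : |ρ.im * Real.log x| ≤ 1 := by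
      rw [abs_mul, abs_of_nonneg h1]
      nlinarith [abs_nonneg ρ.im]
    have h4 := abs_le.1 h3
    apply Real.cos_pos_of_mem_Ioo
    constructor <;> linarith [Real.pi_gt_three]
  set g : ℝ → ℝ := fun t => ((t : ℂ) ^ (ρ - 1) • ((f t : ℝ) : ℂ)).re with hg
  have hgv : ∀ t, 0 < t → g t = t ^ (ρ.re - 1) * Real.cos (ρ.im * Real.log t) * f t := by
    intro t ht
    simp only [hg, smul_eq_mul, mul_re, ofReal_re, ofReal_im, mul_zero, sub_zero]
    rw [re_cpow_ofReal ht]
    simp
  have hint : IntegrableOn g (Ioi 0) := Integrable.re hconv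
  have hpos : 0 < ∫ t in Ioi (0 : ℝ), g t := by
    rw [setIntegral_pos_iff_support_of_nonneg_ae _ hint]
    · have hsub : Ioo (1 + δ / 4) (1 + 3 * δ / 4) ⊆ Function.support g ∩ Ioi 0 := by
        intro t ht
        have ht0 : 0 < t := by linarith [ht.1]
        refine ⟨?_, ht0⟩
        rw [Function.mem_support, hgv t ht0]
        have h1 : 0 < f t := by
          have : t ∈ Function.support f := by rw [hsp]; exact ht
          exact lt_of_le_of_ne (f.nonneg' t) (Ne.symm this)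
        have h2 := hcos t ht
        positivity
      refine lt_of_lt_of_le ?_ (measure_mono hsub)
      rw [Real.volume_Ioo, ENNReal.ofReal_pos]
      linarith
    · refine (ae_restrict_iff' measurableSet_Ioi).2 (Eventually.of_forall fun t ht => ?_)
      have ht0 : 0 < t := ht
      change 0 ≤ g t
      rw [hgv t ht0]
      by_cases h : t ∈ Ioo (1 + δ / 4) (1 + 3 * δ / 4)
      · have h2 := hcos t h
        have h3 := f.nonneg' t
        positivity
      · rw [hz t h, mul_zero]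
  intro h0
  have h1 : ∫ t in Ioi (0 : ℝ), g t = (mellin (fun x => ((f x : ℝ) : ℂ)) ρ).re :=
    integral_re hconv
  rw [h1, h0, zero_re] at hpos
  exact lt_irrefl _ hpos

theorem exists_bump (ρ : ℂ) {a b : ℝ} (ha : 0 < a) (hab : a < b) :
    ∃ W : ℝ → ℝ, ContDiff ℝ ∞ W ∧ (∀ x, 0 ≤ W x) ∧ (∀ x, W x ≤ 1) ∧
      tsupport W ⊆ Ioo a b ∧ mellin (fun x => (W x : ℂ)) ρ ≠ 0 := by
  obtain ⟨W, h1, h2, h3, h4, h5⟩ := exists_bump_one ρ (η := b / a - 1)
    (by rw [sub_pos, one_lt_div ha]; exact hab)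
  refine ⟨fun x => W (a⁻¹ * x), h1.comp (by fun_prop), fun x => h2 _, fun x => h3 _, ?_, ?_⟩
  · have h6 : tsupport (fun x => W (a⁻¹ * x)) ⊆ (fun x => a⁻¹ * x) ⁻¹' tsupport W := by
      refine closure_minimal (fun x hx => subset_tsupport W hx) ?_
      exact (isClosed_tsupport W).preimage (by fun_prop)
    intro x hx
    have h7 := h4 (h6 hx)
    have h8 : 1 < a⁻¹ * x := h7.1
    have h9 : a⁻¹ * x < 1 + (b / a - 1) := h7.2
    rw [inv_mul_eq_div, one_lt_div ha] at h8
    rw [inv_mul_eq_div, add_sub_cancel, div_lt_div_iff_of_pos_right ha] at h9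
    exact ⟨h8, h9⟩
  · have h6 := mellin_comp_mul_left (fun x => (W x : ℂ)) ρ (inv_pos.2 ha)
    rw [h6, smul_eq_mul]
    refine mul_ne_zero ?_ h5
    rw [Ne, cpow_eq_zero_iff, not_and_or]
    left
    exact ofReal_ne_zero.2 (inv_pos.2 ha).ne'

end Vale.Agent.P026Z.End
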