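import Vale.Agent.P006.CLS.Pair

/-!
P026, block END, part 7: the ordinary large sieve for a family of primitive characters with
pairwise different primary moduli, in both positions.
-/

namespace Vale.Agent.P026Z.End

open Finset Vale.Agent.P006 Vale.Agent.P006.CLS

theorem single_ls {chi : O → O → ℂ} {T : Finset O} {Q X : ℝ} (hQ : 1 ≤ Q) (hX : 1 ≤ X)
    (hT : ∀ n ∈ T, Primary n ∧ (N n : ℝ) ≤ Q ∧ PChar n (chi n))
    (S : Finset O) (hS : ∀ u ∈ S, (N u : ℝ) ≤ X) (c : O → ℂ) :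
    ∑ n ∈ T, ‖∑ u ∈ S, c u * chi n u‖ ^ 2 ≤ cLS2 * (X + Q ^ 2) * ∑ u ∈ S, ‖c u‖ ^ 2 := by
  have hfam : CharFam T redRes (fun n => ({n} : Finset O)) chi Q := by
    apply charFam_of_PChar (fun n hn => (hT n hn).1) (fun n hn => (hT n hn).2.1)
    · intro n hn j hj
      rw [mem_singleton.1 hj]; exact (hT n hn).2.2
    · intro n _ i hi j hj hij
      exact absurd ((mem_singleton.1 hi).trans (mem_singleton.1 hj).symm) hij
  simpa using char_large_sieve hfam hQ hX S hS c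

theorem dual_ls {chi : O → O → ℂ} {T : Finset O} {Q X : ℝ} (hQ : 1 ≤ Q) (hX : 1 ≤ X)
    (hT : ∀ n ∈ T, Primary n ∧ (N n : ℝ) ≤ Q ∧ PChar n (chi n))
    (S : Finset O) (hS : ∀ u ∈ S, (N u : ℝ) ≤ X) (b : O → ℂ) :
    ∑ u ∈ S, ‖∑ n ∈ T, b n * chi n u‖ ^ 2 ≤ cLS2 * (X + Q ^ 2) * ∑ n ∈ T, ‖b n‖ ^ 2 :=
  duality S T (fun u n => chi n u) (mul_nonneg cLS2_nonneg (by positivity))
    (fun c => single_ls hQ hX hT S hS c) b

end Vale.Agent.P026Z.End
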