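import Mathlib.Analysis.MellinTransform
import Mathlib.NumberTheory.LSeries.Basic
import Mathlib.Analysis.Complex.CauchyIntegral
import Mathlib.Analysis.Complex.Convex
import Mathlib.Analysis.Convex.Topology
import Mathlib.Tactic

/-!
P026, block END, part 1: the Mellin step.

If the smoothed sums `∑ m(k) W(k t)` are `O(t^{-σ})` as `t → 0+`, the Dirichlet series of `m`
times the Mellin transform of `W` continues holomorphically to `Re s > σ`.
-/

namespace Vale.Agent.P026Z.End

open Complex Set Filter MeasureTheory Asymptotics Topology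

/-- the smoothed sum `∑_k m(k) W(k t)` -/
noncomputable def smSum (m : ℕ → ℂ) (W : ℝ → ℂ) (t : ℝ) : ℂ := ∑' k : ℕ, m k * W (k * t)

theorem smSum_eq_sum (m : ℕ → ℂ) {W : ℝ → ℂ} {b : ℝ} (hW : ∀ x, b < x → W x = 0) {t : ℝ}
    {K : ℕ} (hK : b < K * t) (ht : 0 < t) :
    smSum m W t = ∑ k ∈ Finset.range K, m k * W (k * t) := by
  unfold smSum
  apply tsum_eq_sum
  intro k hk
  rw [Finset.mem_range, not_lt] at hk
  have h1 : (K : ℝ) * t ≤ k * t := mul_le_mul_of_nonneg_right (by exact_mod_cast hk) ht.le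
  rw [hW _ (lt_of_lt_of_le hK h1), mul_zero]

theorem continuousOn_smSum (m : ℕ → ℂ) {W : ℝ → ℂ} (hc : Continuous W) {b : ℝ}
    (hW : ∀ x, b < x → W x = 0) : ContinuousOn (smSum m W) (Ioi 0) := by
  intro t ht
  have ht' : 0 < t := ht
  obtain ⟨K, hK⟩ := exists_nat_gt (|b| / (t / 2))
  have hK' : |b| < K * (t / 2) := by rwa [div_lt_iff₀ (by positivity)] at hK
  have h1 : smSum m W =ᶠ[𝓝 t] fun u => ∑ k ∈ Finset.range K, m k * W (k * u) := by
    filter_upwards [Ioi_mem_nhds (show t / 2 < t by linarith)] with u hu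
    have hu' : t / 2 < u := hu
    apply smSum_eq_sum m hW _ (by linarith)
    have : (K : ℝ) * (t / 2) ≤ K * u := mul_le_mul_of_nonneg_left hu'.le (Nat.cast_nonneg K)
    linarith [le_abs_self b]
  refine ContinuousAt.continuousWithinAt (ContinuousAt.congr ?_ h1.symm)
  fun_prop

theorem smSum_eq_zero (m : ℕ → ℂ) {W : ℝ → ℂ} {b : ℝ} (hW : ∀ x, b < x → W x = 0)
    (h0 : W 0 = 0) {t : ℝ} (ht : b < t) (ht0 : 0 < t) : smSum m W t = 0 := by
  rw [smSum_eq_sum m hW (K := 1) (by simpa using ht) ht0]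
  simp [h0]

/-- a continuous function supported in `[a,b]`, `a > 0`, has an entire Mellin transform -/
theorem isBigO_top_of_supp {W : ℝ → ℂ} {b : ℝ} (hW : ∀ x, b < x → W x = 0) (c : ℝ) :
    W =O[atTop] (fun x : ℝ => x ^ c) := by
  refine IsBigO.congr' (isBigO_zero _ _) ?_ EventuallyEq.rfl
  filter_upwards [eventually_gt_atTop b] with x hx
  exact (hW x hx).symm

theorem isBigO_bot_of_supp {W : ℝ → ℂ} {a : ℝ} (ha : 0 < a) (hW : ∀ x, x < a → W x = 0) (c : ℝ) :
    W =O[𝓝[>] 0] (fun x : ℝ => x ^ c) := by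
  refine IsBigO.congr' (isBigO_zero _ _) ?_ EventuallyEq.rfl
  filter_upwards [nhdsWithin_le_nhds (Iio_mem_nhds ha)] with x hx
  exact (hW x hx).symm

theorem mellinConvergent_of_supp {W : ℝ → ℂ} (hc : Continuous W) {a b : ℝ} (ha : 0 < a)
    (hWa : ∀ x, x < a → W x = 0) (hWb : ∀ x, b < x → W x = 0) (s : ℂ) : MellinConvergent W s :=
  mellinConvergent_of_isBigO_rpow (a := s.re + 1) (b := s.re - 1)
    (hc.continuousOn.locallyIntegrableOn measurableSet_Ioi) (isBigO_top_of_supp hWb _)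
    (by linarith) (isBigO_bot_of_supp ha hWa _) (by linarith)

theorem differentiable_mellin_of_supp {W : ℝ → ℂ} (hc : Continuous W) {a b : ℝ} (ha : 0 < a)
    (hWa : ∀ x, x < a → W x = 0) (hWb : ∀ x, b < x → W x = 0) : Differentiable ℂ (mellin W) :=
  fun s => mellin_differentiableAt_of_isBigO_rpow (a := s.re + 1) (b := s.re - 1)
    (hc.continuousOn.locallyIntegrableOn measurableSet_Ioi) (isBigO_top_of_supp hWb _)
    (by linarith) (isBigO_bot_of_supp ha hWa _) (by linarith)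

theorem integral_norm_scale (W : ℝ → ℂ) (s : ℂ) {c : ℝ} (hc : 0 < c) :
    ∫ t in Ioi (0 : ℝ), ‖(t : ℂ) ^ (s - 1) • W (c * t)‖
      = c ^ (-s.re) * ∫ t in Ioi (0 : ℝ), ‖(t : ℂ) ^ (s - 1) • W t‖ := by
  have h1 := integral_comp_mul_left_Ioi (fun t : ℝ => ‖(t : ℂ) ^ (s - 1) • W t‖) 0 hc
  rw [mul_zero] at h1
  have h2 : ∫ t in Ioi (0 : ℝ), ‖(t : ℂ) ^ (s - 1) • W (c * t)‖
      = ∫ t in Ioi (0 : ℝ), c ^ (1 - s.re) * ‖((c * t : ℝ) : ℂ) ^ (s - 1) • W (c * t)‖ := by
    refine setIntegral_congr_fun measurableSet_Ioi fun t ht => ?_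
    have ht' : 0 < t := ht
    simp only [norm_smul]
    rw [norm_cpow_eq_rpow_re_of_pos ht', norm_cpow_eq_rpow_re_of_pos (mul_pos hc ht'),
      Real.mul_rpow hc.le ht'.le, sub_re, one_re, ← mul_assoc, ← mul_assoc,
      ← Real.rpow_add hc]
    simp
  rw [h2, integral_const_mul, h1, smul_eq_mul, ← mul_assoc]
  congr 1
  rw [← Real.rpow_neg_one, ← Real.rpow_add hc]
  congr 1; ring

/-- the Mellin transform of the smoothed sum in the region of absolute convergence -/
theorem mellin_smSum {m : ℕ → ℂ} {W : ℝ → ℂ} (hc : Continuous W) {a b : ℝ} (ha : 0 < a)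
    (hWa : ∀ x, x < a → W x = 0) (hWb : ∀ x, b < x → W x = 0) {s : ℂ}
    (hs : LSeriesSummable m s) : mellin (smSum m W) s = LSeries m s * mellin W s := by
  have h0 : W 0 = 0 := hWa 0 ha
  set F : ℕ → ℝ → ℂ := fun k t => m k * ((t : ℂ) ^ (s - 1) • W (k * t)) with hF
  have hint : ∀ k, Integrable (F k) (volume.restrict (Ioi 0)) := by
    intro k
    rcases Nat.eq_zero_or_pos k with rfl | hk
    · simp [hF, h0]
    · have hk' : (0 : ℝ) < k := by exact_mod_cast hk
      exact ((MellinConvergent.comp_mul_left hk').2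
        (mellinConvergent_of_supp hc ha hWa hWb s)).const_mul _
  have hval : ∀ k, ∫ t in Ioi (0 : ℝ), F k t = LSeries.term m s k * mellin W s := by
    intro k
    rcases Nat.eq_zero_or_pos k with rfl | hk
    · simp [hF, h0]
    · have hk' : (0 : ℝ) < k := by exact_mod_cast hk
      have h1 := mellin_comp_mul_left W s hk'
      simp only [hF]
      rw [integral_const_mul]
      change m k * mellin (fun t => W (k * t)) s = _
      rw [h1, LSeries.term_of_ne_zero hk.ne', smul_eq_mul, cpow_neg, ofReal_natCast,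
        div_eq_mul_inv, mul_assoc]
  have hnorm : ∀ k, ∫ t in Ioi (0 : ℝ), ‖F k t‖
      = ‖LSeries.term m s k‖ * ∫ t in Ioi (0 : ℝ), ‖(t : ℂ) ^ (s - 1) • W t‖ := by
    intro k
    rcases Nat.eq_zero_or_pos k with rfl | hk
    · simp [hF, h0]
    · have hk' : (0 : ℝ) < k := by exact_mod_cast hk
      simp only [hF, norm_mul]
      rw [integral_const_mul, integral_norm_scale W s hk', LSeries.norm_term_eq, if_neg hk.ne',
        Real.rpow_neg hk'.le, div_eq_mul_inv, mul_assoc]
  have hsum : Summable fun k => ∫ t in Ioi (0 : ℝ), ‖F k t‖ := by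
    simp_rw [hnorm]
    exact hs.norm.mul_right _
  have h1 := hasSum_integral_of_summable_integral_norm hint hsum
  simp_rw [hval] at h1
  have h2 : mellin (smSum m W) s = ∫ t in Ioi (0 : ℝ), ∑' k, F k t := by
    unfold mellin smSum
    refine setIntegral_congr_fun measurableSet_Ioi fun t _ => ?_
    simp only [hF, smul_eq_mul]
    rw [← tsum_mul_left]
    refine tsum_congr fun k => ?_
    ring
  rw [h2, ← h1.tsum_eq, tsum_mul_right, LSeries]

/-- **The Mellin step.** -/
theorem ne_zero_of_smSum {m : ℕ → ℂ} {W : ℝ → ℂ} (hc : Continuous W) {a b : ℝ} (ha : 0 < a)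
    (hWa : ∀ x, x < a → W x = 0) (hWb : ∀ x, b < x → W x = 0) {σ : ℝ}
    (hm : ∀ s : ℂ, 1 < s.re → LSeriesSummable m s)
    (hA : smSum m W =O[𝓝[>] 0] (fun t : ℝ => t ^ (-σ)))
    {Z E : ℂ → ℂ} (hZ : Differentiable ℂ Z) (hE : Differentiable ℂ E)
    (hZE : ∀ s : ℂ, 1 < s.re → Z s * LSeries m s = E s)
    {ρ : ℂ} (hρ : σ < ρ.re) (hW : mellin W ρ ≠ 0) (hEρ : E ρ ≠ 0) : Z ρ ≠ 0 := by
  have h0 : W 0 = 0 := hWa 0 ha
  have hG : ∀ s : ℂ, σ < s.re → DifferentiableAt ℂ (mellin (smSum m W)) s := by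
    intro s hs
    refine mellin_differentiableAt_of_isBigO_rpow (a := s.re + 1) (b := σ)
      ((continuousOn_smSum m hc hWb).locallyIntegrableOn measurableSet_Ioi) ?_ (by linarith) hA hs
    refine isBigO_top_of_supp (b := max b 0) (fun x hx => ?_) _
    exact smSum_eq_zero m hWb h0 (lt_of_le_of_lt (le_max_left _ _) hx)
      (lt_of_le_of_lt (le_max_right _ _) hx)
  have hM := differentiable_mellin_of_supp hc ha hWa hWb
  set U : Set ℂ := {s | σ < s.re} with hU
  have hUo : IsOpen U := isOpen_lt continuous_const continuous_re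
  have hUc : IsPreconnected U := (convex_halfSpace_re_gt σ).isPreconnected
  have h1 : AnalyticOnNhd ℂ (fun s => Z s * mellin (smSum m W) s) U := by
    refine DifferentiableOn.analyticOnNhd (fun s hs => ?_) hUo
    exact ((hZ s).mul (hG s hs)).differentiableWithinAt
  have h2 : AnalyticOnNhd ℂ (fun s => E s * mellin W s) U := by
    refine DifferentiableOn.analyticOnNhd (fun s _ => ?_) hUo
    exact ((hE s).mul (hM s)).differentiableWithinAt
  set z₀ : ℂ := ((max σ 1 + 1 : ℝ) : ℂ) with hz₀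
  have hz1 : z₀ ∈ U := by
    change σ < z₀.re
    rw [hz₀, ofReal_re]; linarith [le_max_left σ 1]
  have hz2 : 1 < z₀.re := by rw [hz₀, ofReal_re]; linarith [le_max_right σ 1]
  have h3 : (fun s => Z s * mellin (smSum m W) s) =ᶠ[𝓝 z₀] fun s => E s * mellin W s := by
    filter_upwards [(isOpen_lt continuous_const continuous_re).mem_nhds
      (show z₀ ∈ {s : ℂ | 1 < s.re} from hz2)] with s hs
    rw [mellin_smSum hc ha hWa hWb (hm s hs), ← mul_assoc, hZE s hs]
  have h4 := h1.eqOn_of_preconnected_of_eventuallyEq h2 hUc hz1 h3 (show ρ ∈ U from hρ)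
  intro h
  simp only [h, zero_mul] at h4
  exact mul_ne_zero hEρ hW h4.symm

end Vale.Agent.P026Z.End
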