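import Vale.Agent.P006.H845.Sqf
import Vale.Agent.P006.CR.Bridge
import Mathlib.NumberTheory.LSeries.Convolution

/-!
P026, block END, part 2: the number of primary Eisenstein integers of norm `k` is
`∑_{ab = k} χ₀(a) χ₃(b)` (`χ₀`, `χ₃` the two characters modulo 3), and the Moebius function
of `O` summed over the elements of norm `k` is its Dirichlet inverse.
-/

namespace Vale.Agent.P026Z.End

open Finset Vale.Agent.P006

/-- the primary elements of norm `k` -/
noncomputable def RN (k : ℕ) : Finset O := (PB k).filter (fun n => N n = k)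

theorem mem_RN {k : ℕ} {n : O} : n ∈ RN k ↔ Primary n ∧ N n = k := by
  rw [RN, mem_filter, mem_PB]
  constructor
  · rintro ⟨⟨h1, _⟩, h2⟩; exact ⟨h1, h2⟩
  · rintro ⟨h1, h2⟩; exact ⟨⟨h1, by rw [h2]⟩, h2⟩

/-- the number of primary elements of norm `k` -/
noncomputable def rN (k : ℕ) : ℕ := (RN k).card

/-- the sum of the Moebius function over the primary elements of norm `k` -/
noncomputable def mN (k : ℕ) : ℤ := ∑ n ∈ RN k, moeb n

theorem RN_one : RN 1 = {1} := by
  ext n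
  rw [mem_RN, mem_singleton]
  constructor
  · rintro ⟨h1, h2⟩; exact h1.eq_one (isUnit_iff_N.2 h2)
  · rintro rfl; exact ⟨primary_one, N_one⟩

theorem rN_one : rN 1 = 1 := by rw [rN, RN_one, card_singleton]

theorem card_RN_dvd {d : O} (hd : Primary d) (l : ℕ) :
    ((RN (N d * l)).filter (d ∣ ·)).card = rN l := by
  symm
  refine card_bij' (fun b _ => d * b) (fun c _ => c / d) ?_ ?_ ?_ ?_
  · intro b hb
    rw [mem_RN] at hb
    rw [mem_filter, mem_RN]
    exact ⟨⟨hd.mul hb.1, by rw [N_mul, hb.2]⟩, dvd_mul_right _ _⟩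
  · intro c hc
    rw [mem_filter, mem_RN] at hc
    obtain ⟨⟨h1, h2⟩, h3⟩ := hc
    rw [mem_RN]
    refine ⟨h1.div hd h3, ?_⟩
    have h4 := congrArg N (mul_div_of_dvd hd.ne_zero h3)
    rw [N_mul, h2] at h4
    exact Nat.eq_of_mul_eq_mul_left (N_pos hd.ne_zero) h4
  · intro b _; exact mul_div_self hd.ne_zero
  · intro c hc
    rw [mem_filter] at hc
    exact mul_div_of_dvd hd.ne_zero hc.2

theorem card_RN_dvd_eq_zero {d : O} {k : ℕ} (h : ¬ N d ∣ k) :
    ((RN k).filter (d ∣ ·)).card = 0 := by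
  rw [card_eq_zero, eq_empty_iff_forall_notMem]
  intro c hc
  rw [mem_filter, mem_RN] at hc
  exact h (hc.1.2 ▸ N_dvd_N hc.2)

theorem card_RN_sq {d : O} (hd : Primary d) {p : ℕ} (hp : 0 < p) (hN : N d = p ^ 2) (k : ℕ) :
    ((RN (p * k)).filter (d ∣ ·)).card = if p ∣ k then rN (k / p) else 0 := by
  split_ifs with h
  · obtain ⟨l, rfl⟩ := h
    rw [Nat.mul_div_cancel_left l hp, ← card_RN_dvd hd l, hN]
    congr 3; ring
  · apply card_RN_dvd_eq_zero
    rw [hN, sq]
    exact fun h2 => h (Nat.dvd_of_mul_dvd_mul_left hp h2)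

theorem rN_three_mul (k : ℕ) : rN (3 * k) = 0 := by
  rw [rN, card_eq_zero, eq_empty_iff_forall_notMem]
  intro c hc
  rw [mem_RN] at hc
  have := hc.1.N_mod
  omega

theorem primary_neg_natCast {q : ℕ} (hq : q % 3 = 2) : Primary (-(q : O)) := by
  have : -(q : O) = ((-(q : ℤ) : ℤ) : O) := by push_cast; rfl
  rw [this, primary_intCast]; omega

theorem prime_neg_natCast {q : ℕ} (hqp : q.Prime) (hq3 : q % 3 = 2) : Prime (-(q : O)) := by
  have hN : N (-(q : O)) = q ^ 2 := by rw [N_neg, N_natCast]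
  have hpq := primary_neg_natCast hq3
  have hne1 : -(q : O) ≠ 1 := by
    intro h
    have := congrArg N h
    rw [hN, N_one] at this
    have := hqp.two_le
    nlinarith
  obtain ⟨π, hπ⟩ := pdv_nonempty hpq hne1
  rw [mem_pdv hpq.ne_zero] at hπ
  obtain ⟨hpπ, hππ, hd⟩ := hπ
  have h1 : N π ∣ q ^ 2 := hN ▸ N_dvd_N hd
  obtain ⟨k, hk, hk2⟩ := (Nat.dvd_prime_pow hqp).1 h1
  interval_cases k
  · rw [pow_zero] at hk2
    exact absurd hk2 (by have := Prime.two_le_N hππ; omega)
  · rw [pow_one] at hk2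
    have := hpπ.N_mod
    omega
  · obtain ⟨c, hc⟩ := hd
    have h2 : N c = 1 := by
      have h3 := congrArg N hc
      rw [hN, N_mul, hk2] at h3
      exact (Nat.eq_of_mul_eq_mul_left (pow_pos hqp.pos 2) (by rw [mul_one]; exact h3)).symm
    have h3 : Primary c := hpπ.of_mul (hc ▸ hpq)
    have h4 : c = 1 := h3.eq_one (isUnit_iff_N.2 h2)
    rw [hc, h4, mul_one]; exact hππ

theorem dvd_or_star_dvd {π n : O} (hπ : Prime π) (h : π ∣ ((N n : ℕ) : O)) :
    π ∣ n ∨ star π ∣ n := by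
  rw [N_mul_star] at h
  rcases hπ.dvd_or_dvd h with h | h
  · exact Or.inl h
  · right
    obtain ⟨c, hc⟩ := h
    refine ⟨star c, ?_⟩
    rw [← star_mul', ← hc, star_star]

theorem rN_inert {q : ℕ} (hqp : q.Prime) (hq3 : q % 3 = 2) (k : ℕ) :
    rN (q * k) = if q ∣ k then rN (k / q) else 0 := by
  have hN : N (-(q : O)) = q ^ 2 := by rw [N_neg, N_natCast]
  rw [← card_RN_sq (primary_neg_natCast hq3) hqp.pos hN k, rN]
  congr 1
  symm
  apply filter_true_of_mem
  intro n hn
  rw [mem_RN] at hn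
  have h1 : -(q : O) ∣ ((N n : ℕ) : O) := by
    rw [hn.2, Nat.cast_mul, neg_dvd]; exact dvd_mul_right _ _
  rcases dvd_or_star_dvd (prime_neg_natCast hqp hq3) h1 with h | h
  · exact h
  · rwa [star_neg, star_natCast] at h

theorem rN_split {p : ℕ} (hp : p.Prime) (hp3 : p % 3 = 1) (k : ℕ) :
    rN (p * k) + (if p ∣ k then rN (k / p) else 0) = 2 * rN k := by
  classical
  obtain ⟨π, hπ, hpπ, hN⟩ := exists_primary_of_prime hp hp3
  have hN' : N (star π) = p := by rw [N_star, hN]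
  have hN2 : N (π * star π) = p ^ 2 := by rw [N_mul, hN, hN', sq]
  have hcop : IsCoprime π (star π) := hπ.coprime_iff_not_dvd.2 (not_dvd_star hp hπ hpπ hN)
  have h1 : RN (p * k) = (RN (p * k)).filter (π ∣ ·) ∪ (RN (p * k)).filter (star π ∣ ·) := by
    rw [← filter_or]
    symm
    apply filter_true_of_mem
    intro n hn
    rw [mem_RN] at hn
    apply dvd_or_star_dvd hπ
    rw [hn.2, Nat.cast_mul, ← hN, N_mul_star, mul_assoc]
    exact dvd_mul_right _ _
  have h2 : (RN (p * k)).filter (π ∣ ·) ∩ (RN (p * k)).filter (star π ∣ ·)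
      = (RN (p * k)).filter (π * star π ∣ ·) := by
    rw [← filter_and]
    apply filter_congr
    intro n _
    exact ⟨fun h => hcop.mul_dvd h.1 h.2,
      fun h => ⟨(dvd_mul_right _ _).trans h, (dvd_mul_left _ _).trans h⟩⟩
  have h3 := card_union_add_card_inter ((RN (p * k)).filter (π ∣ ·))
    ((RN (p * k)).filter (star π ∣ ·))
  rw [← h1, h2, card_RN_sq (hpπ.mul hpπ.star) hp.pos hN2 k] at h3
  have h4 := card_RN_dvd hpπ k
  have h5 := card_RN_dvd hpπ.star k
  rw [hN] at h4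
  rw [hN'] at h5
  rw [h4, h5] at h3
  rw [rN, h3]; ring

/-! ### The Hecke relation for the convolution of two completely multiplicative functions -/

theorem sum_dA_fst {M : Type*} [AddCommMonoid M] {p : ℕ} (hp : 0 < p) (k : ℕ) (F : ℕ × ℕ → M) :
    ∑ x ∈ (p * k).divisorsAntidiagonal.filter (fun x => p ∣ x.1), F x
      = ∑ y ∈ k.divisorsAntidiagonal, F (p * y.1, y.2) := by
  symm
  refine sum_bij' (fun y _ => (p * y.1, y.2)) (fun x _ => (x.1 / p, x.2)) ?_ ?_ ?_ ?_ ?_
  · intro y hy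
    rw [Nat.mem_divisorsAntidiagonal] at hy
    rw [mem_filter, Nat.mem_divisorsAntidiagonal]
    exact ⟨⟨by rw [← hy.1]; ring, mul_ne_zero hp.ne' hy.2⟩, dvd_mul_right _ _⟩
  · intro x hx
    rw [mem_filter, Nat.mem_divisorsAntidiagonal] at hx
    obtain ⟨⟨h1, h2⟩, c, hc⟩ := hx
    rw [Nat.mem_divisorsAntidiagonal]
    refine ⟨?_, right_ne_zero_of_mul h2⟩
    simp only
    rw [hc, Nat.mul_div_cancel_left c hp]
    rw [hc, mul_assoc] at h1
    exact Nat.eq_of_mul_eq_mul_left hp h1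
  · intro y _
    simp only [Nat.mul_div_cancel_left _ hp]
  · intro x hx
    rw [mem_filter] at hx
    simp only [Nat.mul_div_cancel' hx.2]
  · intro y _; rfl

theorem sum_dA_snd {M : Type*} [AddCommMonoid M] {p : ℕ} (hp : 0 < p) (k : ℕ) (F : ℕ × ℕ → M) :
    ∑ x ∈ (p * k).divisorsAntidiagonal.filter (fun x => p ∣ x.2), F x
      = ∑ y ∈ k.divisorsAntidiagonal, F (y.1, p * y.2) := by
  symm
  refine sum_bij' (fun y _ => (y.1, p * y.2)) (fun x _ => (x.1, x.2 / p)) ?_ ?_ ?_ ?_ ?_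
  · intro y hy
    rw [Nat.mem_divisorsAntidiagonal] at hy
    rw [mem_filter, Nat.mem_divisorsAntidiagonal]
    exact ⟨⟨by rw [← hy.1]; ring, mul_ne_zero hp.ne' hy.2⟩, dvd_mul_right _ _⟩
  · intro x hx
    rw [mem_filter, Nat.mem_divisorsAntidiagonal] at hx
    obtain ⟨⟨h1, h2⟩, c, hc⟩ := hx
    rw [Nat.mem_divisorsAntidiagonal]
    refine ⟨?_, right_ne_zero_of_mul h2⟩
    simp only
    rw [hc, Nat.mul_div_cancel_left c hp]
    rw [hc, mul_left_comm] at h1
    exact Nat.eq_of_mul_eq_mul_left hp h1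
  · intro y _
    simp only [Nat.mul_div_cancel_left _ hp]
  · intro x hx
    rw [mem_filter] at hx
    simp only [Nat.mul_div_cancel' hx.2]
  · intro y _; rfl

/-- the convolution of `f` and `g` -/
noncomputable def cv (f g : ℕ → ℂ) (k : ℕ) : ℂ := ∑ x ∈ k.divisorsAntidiagonal, f x.1 * g x.2

theorem cv_hecke {f g : ℕ → ℂ} (hf : ∀ a b, f (a * b) = f a * f b)
    (hg : ∀ a b, g (a * b) = g a * g b) {p : ℕ} (hp : p.Prime) (k : ℕ) :
    cv f g (p * k) + f p * g p * (if p ∣ k then cv f g (k / p) else 0)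
      = (f p + g p) * cv f g k := by
  classical
  set F : ℕ × ℕ → ℂ := fun x => f x.1 * g x.2 with hF
  set A := (p * k).divisorsAntidiagonal with hA
  have h1 : A = A.filter (fun x => p ∣ x.1) ∪ A.filter (fun x => p ∣ x.2) := by
    rw [← filter_or]
    symm
    apply filter_true_of_mem
    intro x hx
    rw [hA, Nat.mem_divisorsAntidiagonal] at hx
    exact (Nat.Prime.dvd_mul hp).1 (hx.1 ▸ dvd_mul_right _ _)
  have h2 := sum_union_inter (s₁ := A.filter (fun x => p ∣ x.1))
    (s₂ := A.filter (fun x => p ∣ x.2)) (f := F)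
  rw [← h1] at h2
  have h3 : ∑ x ∈ A.filter (fun x => p ∣ x.1), F x = f p * cv f g k := by
    rw [hA, sum_dA_fst hp.pos, cv, mul_sum]
    refine sum_congr rfl fun y _ => ?_
    simp only [hF, hf]; ring
  have h4 : ∑ x ∈ A.filter (fun x => p ∣ x.2), F x = g p * cv f g k := by
    rw [hA, sum_dA_snd hp.pos, cv, mul_sum]
    refine sum_congr rfl fun y _ => ?_
    simp only [hF, hg]; ring
  have h5 : ∑ x ∈ A.filter (fun x => p ∣ x.1) ∩ A.filter (fun x => p ∣ x.2), F x
      = f p * g p * (if p ∣ k then cv f g (k / p) else 0) := by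
    have h6 : ∑ x ∈ A.filter (fun x => p ∣ x.1) ∩ A.filter (fun x => p ∣ x.2), F x
        = ∑ x ∈ A.filter (fun x => p ∣ x.1), if p ∣ x.2 then F x else 0 := by
      rw [← filter_and, ← filter_filter, sum_filter]
    rw [h6, hA, sum_dA_fst hp.pos k (fun x => if p ∣ x.2 then F x else 0), ← sum_filter]
    split_ifs with h
    · obtain ⟨l, rfl⟩ := h
      rw [Nat.mul_div_cancel_left l hp.pos,
        sum_dA_snd hp.pos l (fun y => F (p * y.1, y.2)), cv, mul_sum]
      refine sum_congr rfl fun y _ => ?_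
      simp only [hF, hf, hg]; ring
    · rw [mul_zero]
      apply sum_eq_zero
      intro y hy
      rw [mem_filter, Nat.mem_divisorsAntidiagonal] at hy
      exact absurd (hy.1.1 ▸ hy.2.mul_left _) h
  rw [h3, h4, h5] at h2
  change cv f g (p * k) + _ = _ at h2
  rw [h2]; ring

/-- the principal character modulo 3 -/
noncomputable def c0 (k : ℕ) : ℂ := if k % 3 = 0 then 0 else 1

/-- the quadratic character modulo 3 -/
noncomputable def c3 (k : ℕ) : ℂ := if k % 3 = 0 then 0 else if k % 3 = 1 then 1 else -1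

theorem c0_mul (a b : ℕ) : c0 (a * b) = c0 a * c0 b := by
  unfold c0
  rw [Nat.mul_mod]
  have ha : a % 3 < 3 := Nat.mod_lt _ (by norm_num)
  have hb : b % 3 < 3 := Nat.mod_lt _ (by norm_num)
  generalize a % 3 = x at *
  generalize b % 3 = y at *
  interval_cases x <;> interval_cases y <;> simp

theorem c3_mul (a b : ℕ) : c3 (a * b) = c3 a * c3 b := by
  unfold c3
  rw [Nat.mul_mod]
  have ha : a % 3 < 3 := Nat.mod_lt _ (by norm_num)
  have hb : b % 3 < 3 := Nat.mod_lt _ (by norm_num)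
  generalize a % 3 = x at *
  generalize b % 3 = y at *
  interval_cases x <;> interval_cases y <;> simp

/-- `#{n primary, N n = k} = ∑_{ab = k} χ₀(a) χ₃(b)` -/
theorem rN_eq_cv (k : ℕ) (hk : k ≠ 0) : (rN k : ℂ) = cv c0 c3 k := by
  induction k using Nat.strong_induction_on with
  | _ k ih => ?_
  by_cases h1 : k = 1
  · subst h1
    simp [rN_one, cv, c0, c3]
  obtain ⟨p, hp, l, rfl⟩ := Nat.exists_prime_and_dvd h1
  have hl : l ≠ 0 := right_ne_zero_of_mul hk
  have hlt : l < p * l := by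
    have := hp.two_le
    have := Nat.pos_of_ne_zero hl
    nlinarith
  have ih1 := ih l hlt hl
  have ih2 : ((if p ∣ l then rN (l / p) else 0 : ℕ) : ℂ)
      = if p ∣ l then cv c0 c3 (l / p) else 0 := by
    split_ifs with h
    · exact ih _ (lt_of_le_of_lt (Nat.div_le_self _ _) hlt)
        (Nat.div_ne_zero_iff_of_dvd h |>.2 ⟨hl, hp.ne_zero⟩)
    · simp
  have H := cv_hecke c0_mul c3_mul hp l
  have h3 : p % 3 < 3 := Nat.mod_lt _ (by norm_num)
  by_cases h0 : p % 3 = 0
  · have : p = 3 := ((Nat.prime_dvd_prime_iff_eq Nat.prime_three hp).1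
      (Nat.dvd_of_mod_eq_zero h0)).symm
    subst this
    rw [rN_three_mul]
    simpa [c0, c3] using H.symm
  by_cases h1 : p % 3 = 1
  · have h2 := congrArg (Nat.cast : ℕ → ℂ) (rN_split hp h1 l)
    rw [Nat.cast_add, ih2, Nat.cast_mul, ih1] at h2
    simp only [c0, c3, h1, one_ne_zero, if_false, if_true, one_mul] at H
    push_cast at h2
    linear_combination h2 - H
  · have h2 : p % 3 = 2 := by omega
    have h4 := congrArg (Nat.cast : ℕ → ℂ) (rN_inert hp h2 l)
    rw [ih2] at h4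
    simp only [c0, c3, h0, h1, if_false, one_mul] at H
    linear_combination h4 - H

/-- `∑_{ab = k} m(a) r(b) = [k = 1]` -/
theorem mN_cv_rN (k : ℕ) (hk : k ≠ 0) :
    ∑ x ∈ k.divisorsAntidiagonal, mN x.1 * (rN x.2 : ℤ) = if k = 1 then 1 else 0 := by
  classical
  have h1 : ∑ x ∈ k.divisorsAntidiagonal, mN x.1 * (rN x.2 : ℤ)
      = ∑ a ∈ k.divisors, ∑ d ∈ RN a, ∑ c ∈ RN k, if d ∣ c then moeb d else 0 := by
    rw [Nat.sum_divisorsAntidiagonal (fun a b => mN a * (rN b : ℤ))]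
    refine sum_congr rfl fun a ha => ?_
    rw [mN, sum_mul]
    refine sum_congr rfl fun d hd => ?_
    rw [mem_RN] at hd
    have h2 := card_RN_dvd hd.1 (k / a)
    rw [hd.2, Nat.mul_div_cancel' (Nat.dvd_of_mem_divisors ha)] at h2
    rw [← sum_filter, sum_const, h2, nsmul_eq_mul, mul_comm]
  have h2 : ∀ c ∈ RN k, ∑ a ∈ k.divisors, ∑ d ∈ RN a, (if d ∣ c then moeb d else 0)
      = if c = 1 then 1 else 0 := by
    intro c hc
    rw [mem_RN] at hc
    rw [← sum_moeb_dvs hc.1, ← sum_fiberwise_of_maps_to (s := dvs c) (t := k.divisors) (g := N)]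
    · refine sum_congr rfl fun a _ => ?_
      rw [← sum_filter]
      congr 1
      ext d
      rw [mem_filter, mem_filter, mem_RN, mem_dvs hc.1.ne_zero]
      tauto
    · intro d hd
      rw [mem_dvs hc.1.ne_zero] at hd
      rw [Nat.mem_divisors]
      exact ⟨hc.2 ▸ N_dvd_N hd.2, hk⟩
  rw [h1]
  simp_rw [sum_comm (t := RN k)]
  rw [sum_congr rfl h2]
  split_ifs with h
  · subst h; simp [RN_one]
  · apply sum_eq_zero
    intro c hc
    rw [mem_RN] at hc
    rw [if_neg]
    rintro rfl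
    exact h (by rw [← hc.2, N_one])

theorem abs_mN_le (k : ℕ) : |mN k| ≤ rN k := by
  unfold mN rN
  refine (abs_sum_le_sum_abs _ _).trans ?_
  refine (sum_le_sum fun n _ => abs_moeb_le n).trans ?_
  simp

end Vale.Agent.P026Z.End
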