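import Vale.Agent.P026Z.End.Rep
import Vale.Agent.P026Z.End.Bump
import Mathlib.NumberTheory.LSeries.DirichletContinuation
import Mathlib.NumberTheory.LSeries.Nonvanishing
import Mathlib.NumberTheory.LegendreSymbol.QuadraticChar.Basic

/-!
P026, block END, part 4: a power saving in the smoothed sums of the Moebius function of `ℤ[ω]`
(twisted by a Dirichlet character of the norm) gives a zero-free half-plane.
-/

namespace Vale.Agent.P026Z.End

open Complex Set Filter Asymptotics Topology Vale.Agent.P006 DirichletCharacter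
open scoped ContDiff

/-- the quadratic Dirichlet character modulo 3 -/
noncomputable def chi3 : DirichletCharacter ℂ 3 :=
  (quadraticChar (ZMod 3)).ringHomComp (Int.castRingHom ℂ)

theorem chi3_natCast (k : ℕ) : chi3 (k : ZMod 3) = c3 k := by
  have h1 : (k : ZMod 3) = ((k % 3 : ℕ) : ZMod 3) := (ZMod.natCast_mod k 3).symm
  have h2 : k % 3 < 3 := Nat.mod_lt _ (by norm_num)
  rw [h1, c3, chi3, MulChar.ringHomComp_apply]
  generalize k % 3 = x at *
  have e2 : quadraticChar (ZMod 3) ((2 : ℕ) : ZMod 3) = -1 := by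
    rw [quadraticChar_neg_one_iff_not_isSquare]; decide
  interval_cases x
  · simp
  · simp
  · rw [e2]; simp

theorem norm_c0_le (k : ℕ) : ‖c0 k‖ ≤ 1 := by unfold c0; split_ifs <;> simp

theorem norm_c3_le (k : ℕ) : ‖c3 k‖ ≤ 1 := by unfold c3; split_ifs <;> simp

theorem rN_eq_conv {k : ℕ} (hk : k ≠ 0) : (rN k : ℂ) = LSeries.convolution c0 c3 k := by
  rw [LSeries.convolution_def, rN_eq_cv k hk, cv]

theorem LSeriesSummable_rN {s : ℂ} (hs : 1 < s.re) : LSeriesSummable (fun k => (rN k : ℂ)) s := by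
  rw [LSeriesSummable_congr s rN_eq_conv]
  exact (LSeriesSummable_of_bounded_of_one_lt_re (fun k _ => norm_c0_le k) hs).convolution
    (LSeriesSummable_of_bounded_of_one_lt_re (fun k _ => norm_c3_le k) hs)

theorem LSeriesSummable_mN {s : ℂ} (hs : 1 < s.re) : LSeriesSummable (fun k => (mN k : ℂ)) s := by
  refine Summable.of_norm <| (LSeriesSummable_rN hs).norm.of_nonneg_of_le
    (fun _ => norm_nonneg _) fun k => LSeries.norm_term_le s ?_
  rw [norm_intCast, norm_natCast]
  exact_mod_cast abs_mN_le k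

variable {q : ℕ}

theorem apply_natCast_eq_zero (ψ : DirichletCharacter ℂ q) {k : ℕ} (hk : ¬ k.Coprime q) :
    ψ (k : ZMod q) = 0 :=
  ψ.map_nonunit (by rwa [ZMod.isUnit_iff_coprime])

theorem changeLevel_natCast {m : ℕ} (χ : DirichletCharacter ℂ q) (h : q ∣ m) {k : ℕ}
    (hk : k.Coprime m) : changeLevel h χ (k : ZMod m) = χ (k : ZMod q) := by
  have := changeLevel_eq_cast_of_dvd' χ h (a := (k : ℤ)) (Nat.isCoprime_iff_coprime.2 hk)
  simpa using this

/-- the twist of `ψ` by the quadratic character modulo 3 -/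
noncomputable def tw3 (h3 : 3 ∣ q) (ψ : DirichletCharacter ℂ q) : DirichletCharacter ℂ q :=
  ψ * changeLevel h3 chi3

theorem tw3_natCast (h3 : 3 ∣ q) (ψ : DirichletCharacter ℂ q) (k : ℕ) :
    tw3 h3 ψ (k : ZMod q) = ψ (k : ZMod q) * c3 k := by
  rw [tw3, MulChar.mul_apply]
  by_cases hk : k.Coprime q
  · rw [changeLevel_natCast _ h3 hk, chi3_natCast]
  · rw [apply_natCast_eq_zero ψ hk, zero_mul, zero_mul]

theorem mul_c0 (h3 : 3 ∣ q) (ψ : DirichletCharacter ℂ q) (k : ℕ) :
    ψ (k : ZMod q) * c0 k = ψ (k : ZMod q) := by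
  unfold c0
  split_ifs with h
  · rw [apply_natCast_eq_zero ψ, zero_mul]
    intro hk
    have := Nat.dvd_gcd (Nat.dvd_of_mod_eq_zero h) h3
    rw [hk] at this
    omega
  · rw [mul_one]

/-- `∑_n μ(n) ψ(N n) N(n)^{-s} = 1 / (L(s,ψ) L(s,ψχ₃))` -/
theorem LSeries_mN_mul (h3 : 3 ∣ q) (ψ : DirichletCharacter ℂ q) {s : ℂ} (hs : 1 < s.re) :
    LSeries (fun k : ℕ => ψ k) s * LSeries (fun k : ℕ => tw3 h3 ψ k) s *
      LSeries ((fun k : ℕ => ψ k) * fun k => (mN k : ℂ)) s = 1 := by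
  have h1 : LSeries.convolution (fun k : ℕ => ψ k) (fun k : ℕ => tw3 h3 ψ k)
      = (fun k : ℕ => ψ k) * LSeries.convolution c0 c3 := by
    rw [← ψ.mul_convolution_distrib]
    congr 1
    · funext k; exact (mul_c0 h3 ψ k).symm
    · funext k; exact tw3_natCast h3 ψ k
  have h2 : LSeries.convolution (fun k => (mN k : ℂ)) (LSeries.convolution c0 c3)
      = LSeries.delta := by
    rw [LSeries.convolution_congr (fun _ => rfl) (fun hk => (rN_eq_conv hk).symm),
      LSeries.convolution_def]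
    funext k
    rcases eq_or_ne k 0 with rfl | hk
    · simp [LSeries.delta]
    · have := congrArg (Int.cast : ℤ → ℂ) (mN_cv_rN k hk)
      push_cast at this
      rw [this, LSeries.delta]
  have s1 := LSeriesSummable_of_one_lt_re ψ hs
  have s2 := LSeriesSummable_of_one_lt_re (tw3 h3 ψ) hs
  have s3 := LSeriesSummable_mul ψ (LSeriesSummable_mN hs)
  rw [← LSeries_convolution' s1 s2, mul_comm, ← LSeries_convolution' s3 (s1.convolution s2), h1,
    ψ.mul_convolution_distrib, h2, mul_delta, LSeries_delta, Pi.one_apply]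

open Classical in
/-- the entire function `(s - 1) L(s, φ)` -/
noncomputable def L1 [NeZero q] (φ : DirichletCharacter ℂ q) : ℂ → ℂ :=
  if φ = 1 then LFunctionTrivChar₁ q else fun s => (s - 1) * LFunction φ s

theorem differentiable_L1 [NeZero q] (φ : DirichletCharacter ℂ q) : Differentiable ℂ (L1 φ) := by
  unfold L1
  split_ifs with h
  · exact differentiable_LFunctionTrivChar₁ q
  · have := differentiable_LFunction h
    fun_prop

theorem L1_apply [NeZero q] (φ : DirichletCharacter ℂ q) {s : ℂ} (hs : s ≠ 1) :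
    L1 φ s = (s - 1) * LFunction φ s := by
  unfold L1
  split_ifs with h
  · subst h
    exact Function.update_of_ne hs ..
  · rfl

theorem smSum_eq_sum_PB (f : ℕ → ℂ) {W : ℝ → ℂ} {b D : ℝ} (hb : 0 ≤ b) (hD : 0 < D)
    (hW : ∀ x, b < x → W x = 0) :
    smSum (f * fun k => (mN k : ℂ)) W D⁻¹
      = ∑ n ∈ PB (b * D), (moeb n : ℂ) * f (N n) * W (N n / D) := by
  classical
  have hK : b < ((⌊b * D⌋₊ + 1 : ℕ) : ℝ) * D⁻¹ := by
    rw [← div_eq_mul_inv, lt_div_iff₀ hD]
    push_cast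
    exact Nat.lt_floor_add_one _
  rw [smSum_eq_sum _ hW hK (inv_pos.2 hD),
    ← Finset.sum_fiberwise_of_maps_to (s := PB (b * D)) (t := Finset.range (⌊b * D⌋₊ + 1))
      (g := N)]
  · refine Finset.sum_congr rfl fun k hk => ?_
    have h1 : (PB (b * D)).filter (fun n => N n = k) = RN k := by
      ext n
      rw [Finset.mem_filter, mem_PB, mem_RN]
      constructor
      · rintro ⟨⟨h1, _⟩, h2⟩; exact ⟨h1, h2⟩
      · rintro ⟨h1, h2⟩
        refine ⟨⟨h1, ?_⟩, h2⟩
        rw [Finset.mem_range, Nat.lt_succ_iff] at hk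
        rw [h2]
        exact (Nat.le_floor_iff (by positivity)).1 hk
    rw [h1, Pi.mul_apply, mN]
    push_cast
    rw [Finset.mul_sum, Finset.sum_mul]
    refine Finset.sum_congr rfl fun n hn => ?_
    rw [(mem_RN.1 hn).2, div_eq_mul_inv]; ring
  · intro n hn
    rw [mem_PB] at hn
    rw [Finset.mem_range, Nat.lt_succ_iff]
    exact Nat.le_floor hn.2

/-- The bound `∑ μ(n) c(n) W(N n / D) = O_W(D^σ)` for all smooth nonnegative `W` supported in
`(a,b)`; the sum runs over primary `n`. -/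
def MoebBound (c : O → ℂ) (a b σ : ℝ) : Prop :=
  ∀ W : ℝ → ℝ, ContDiff ℝ ∞ W → (∀ x, 0 ≤ W x) → (∀ x, W x ≤ 1) → tsupport W ⊆ Ioo a b →
    ∃ C D₀ : ℝ, ∀ D : ℝ, D₀ ≤ D →
      ‖∑ n ∈ PB (b * D), (moeb n : ℂ) * c n * (W (N n / D) : ℂ)‖ ≤ C * D ^ σ

theorem MoebBound.congr {c c' : O → ℂ} {a b σ : ℝ} (h : MoebBound c a b σ)
    (hc : ∀ n, Primary n → Squarefree n → c n = c' n) : MoebBound c' a b σ := by
  intro W h1 h2 h3 h4
  obtain ⟨C, D₀, H⟩ := h W h1 h2 h3 h4
  refine ⟨C, D₀, fun D hD => le_of_eq_of_le ?_ (H D hD)⟩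
  congr 1
  refine Finset.sum_congr rfl fun n hn => ?_
  by_cases hs : Squarefree n
  · rw [hc n (mem_PB.1 hn).1 hs]
  · simp [moeb_of_not_squarefree hs]

theorem LFunction_ne_zero_of_three_dvd [NeZero q] (h3 : 3 ∣ q) (ψ : DirichletCharacter ℂ q)
    {a b σ : ℝ} (ha : 0 < a) (hab : a < b) (h : MoebBound (fun n => ψ (N n : ZMod q)) a b σ)
    {ρ : ℂ} (hρ : σ < ρ.re) (hρ1 : ρ ≠ 1) :
    LFunction ψ ρ ≠ 0 ∧ LFunction (tw3 h3 ψ) ρ ≠ 0 := by
  obtain ⟨W, w1, w2, w3, w4, w5⟩ := exists_bump ρ ha hab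
  obtain ⟨C, D₀, H⟩ := h W w1 w2 w3 w4
  have hz : ∀ x, x ∉ Ioo a b → W x = 0 := fun x hx =>
    image_eq_zero_of_notMem_tsupport (fun h => hx (w4 h))
  have hWa : ∀ x, x < a → (W x : ℂ) = 0 := fun x hx => by
    rw [hz x (fun h => by linarith [h.1]), ofReal_zero]
  have hWb : ∀ x, b < x → (W x : ℂ) = 0 := fun x hx => by
    rw [hz x (fun h => by linarith [h.2]), ofReal_zero]
  have hA : smSum ((fun k : ℕ => ψ k) * fun k => (mN k : ℂ)) (fun x => (W x : ℂ)) =O[𝓝[>] 0]
      (fun t : ℝ => t ^ (-σ)) := by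
    refine IsBigO.of_bound C ?_
    filter_upwards [self_mem_nhdsWithin,
      tendsto_inv_nhdsGT_zero.eventually (eventually_ge_atTop D₀)] with t ht htD
    have ht0 : 0 < t := ht
    have h1 := smSum_eq_sum_PB (fun k : ℕ => ψ k) (ha.trans hab).le (inv_pos.2 ht0) hWb
    rw [inv_inv] at h1
    rw [h1, Real.norm_of_nonneg (Real.rpow_nonneg ht0.le _), Real.rpow_neg ht0.le,
      ← Real.inv_rpow ht0.le]
    exact H _ htD
  have hZ := ne_zero_of_smSum (continuous_ofReal.comp w1.continuous) ha hWa hWb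
    (fun s hs => LSeriesSummable_mul ψ (LSeriesSummable_mN hs)) hA
    (Z := fun s => L1 ψ s * L1 (tw3 h3 ψ) s) (E := fun s => (s - 1) ^ 2)
    ((differentiable_L1 ψ).mul (differentiable_L1 _)) (by fun_prop) (fun s hs => by
      have hs1 : s ≠ 1 := by rintro rfl; simp at hs
      have := LSeries_mN_mul h3 ψ hs
      rw [L1_apply _ hs1, L1_apply _ hs1, LFunction_eq_LSeries _ hs, LFunction_eq_LSeries _ hs]
      linear_combination (s - 1) ^ 2 * this)
    hρ w5 (pow_ne_zero _ (sub_ne_zero.2 hρ1))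
  simp only [L1_apply _ hρ1] at hZ
  exact ⟨right_ne_zero_of_mul (left_ne_zero_of_mul hZ),
    right_ne_zero_of_mul (right_ne_zero_of_mul hZ)⟩

/-- **From the Moebius sums to a zero-free half-plane for `L(s,χ)`**; the sums run over primary
`n` whose norm is prime to a fixed `M ≠ 0`. -/
theorem LFunction_ne_zero_of_moebBound [NeZero q] (χ : DirichletCharacter ℂ q) {M : ℕ}
    (hM : M ≠ 0) {a b σ : ℝ} (ha : 0 < a) (hab : a < b)
    (h : MoebBound (fun n => if (N n).Coprime M then χ (N n : ZMod q) else 0) a b σ)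
    {ρ : ℂ} (hρ : σ < ρ.re) (hρ1 : ρ ≠ 1) : LFunction χ ρ ≠ 0 := by
  have : NeZero (3 * M * q) := ⟨mul_ne_zero (mul_ne_zero (by norm_num) hM) (NeZero.ne q)⟩
  have hq : q ∣ 3 * M * q := dvd_mul_left _ _
  have h3 : 3 ∣ 3 * M * q := by rw [mul_assoc]; exact dvd_mul_right _ _
  have h' : MoebBound (fun n => changeLevel hq χ (N n : ZMod (3 * M * q))) a b σ := by
    refine h.congr fun n hn _ => ?_
    by_cases h1 : (N n).Coprime (3 * M * q)
    · rw [changeLevel_natCast χ hq h1, if_pos]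
      exact (h1.coprime_mul_right_right).coprime_mul_left_right
    · rw [apply_natCast_eq_zero _ h1]
      split_ifs with h2
      · apply apply_natCast_eq_zero
        intro h4
        apply h1
        refine Nat.Coprime.mul_right (Nat.Coprime.mul_right ?_ h2) h4
        have := hn.N_mod
        rw [Nat.coprime_comm, Nat.Prime.coprime_iff_not_dvd Nat.prime_three]
        omega
      · rfl
  have h4 := (LFunction_ne_zero_of_three_dvd h3 _ ha hab h' hρ hρ1).1
  rw [LFunction_changeLevel hq χ (Or.inr hρ1)] at h4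
  exact left_ne_zero_of_mul h4

/-- **From the Moebius sums to a zero-free half-plane for `ζ`**; the sums run over primary `n`
whose norm is prime to a fixed `M ≠ 0`. -/
theorem riemannZeta_ne_zero_of_moebBound {M : ℕ} (hM : M ≠ 0) {a b σ : ℝ} (ha : 0 < a)
    (hab : a < b) (h : MoebBound (fun n => if (N n).Coprime M then 1 else 0) a b σ)
    {ρ : ℂ} (hρ : σ < ρ.re) : riemannZeta ρ ≠ 0 := by
  by_cases hρ1 : ρ = 1
  · subst hρ1; exact riemannZeta_ne_zero_of_one_le_re (by simp)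
  rw [← LFunction_modOne_eq (χ := 1)]
  refine LFunction_ne_zero_of_moebBound 1 hM ha hab (h.congr fun n _ _ => ?_) hρ hρ1
  rw [MulChar.one_apply (isUnit_of_subsingleton _)]

end Vale.Agent.P026Z.End
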